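import Vale.Agent.P038.H315.Star

/-! Optimal pairs of families. -/

set_option autoImplicit false
set_option linter.all false

namespace Vale.Agent.P038.H315

open Finset

variable {V : Type*} [Fintype V] [DecidableEq V] {N : V → Finset V}

/-- the cost of a set -/
def cc (N : V → Finset V) (S : Finset V) : ℤ := ((nb N S).card : ℤ) - (S.card : ℤ)

/-- feasible pairs -/
structure Fe (N P T : V → Finset V) : Prop where
  p : ∀ a, N a ⊆ P a
  t : ∀ b, N b ⊆ T b
  d : ∀ a b, b ∈ P a → a ∈ T b → a = b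

theorem io_mono {P Q : V → Finset V} (h : ∀ a, P a ⊆ Q a) (z : V) : io N P z ⊆ io N Q z :=
  fun x hx => mem_io.2 fun s hs => h s (mem_io.1 hx s hs)

theorem io_sub (hN : ∀ x, x ∈ N x) (P : V → Finset V) (a : V) : io N P a ⊆ P a :=
  fun x hx => mem_io.1 hx a (hN a)

theorem Fe.self_p (hN : ∀ x, x ∈ N x) {P T : V → Finset V} (h : Fe N P T) (a : V) :
    a ∈ io N P a := mem_io.2 fun s hs => h.p s hs

theorem Fe.self_t (hN : ∀ x, x ∈ N x) {P T : V → Finset V} (h : Fe N P T) (a : V) :
    a ∈ io N T a := mem_io.2 fun s hs => h.t s hs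

theorem Fe.inner (hN : ∀ x, x ∈ N x) {P T : V → Finset V} (h : Fe N P T) :
    Fe N (fun a => nb N (io N P a)) (fun b => nb N (io N T b)) where
  p := fun a v hv => mem_nb.2 ⟨a, h.self_p hN a, hv⟩
  t := fun a v hv => mem_nb.2 ⟨a, h.self_t hN a, hv⟩
  d := by
    intro a b hb ha
    obtain ⟨x, hx, hbx⟩ := mem_nb.1 hb
    obtain ⟨y, hy, hay⟩ := mem_nb.1 ha
    have h1 : x ∈ P y := mem_io.1 hx y hay
    have h2 : y ∈ T x := mem_io.1 hy x hbx
    have hxy : y = x := h.d y x h1 h2
    subst hxy
    have h3 : a = y := h.d a y (mem_io.1 hx a (hN a)) (h.t y hay)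
    have h4 : y = b := h.d y b (h.p y hbx) (mem_io.1 hy b (hN b))
    rw [h3, h4]

theorem nb_union (S K : Finset V) : nb N (S ∪ K) = nb N S ∪ nb N K := by
  ext v
  simp only [mem_nb, mem_union]
  constructor
  · rintro ⟨x, hx | hx, hv⟩
    · exact Or.inl ⟨x, hx, hv⟩
    · exact Or.inr ⟨x, hx, hv⟩
  · rintro (⟨x, hx, hv⟩ | ⟨x, hx, hv⟩)
    · exact ⟨x, Or.inl hx, hv⟩
    · exact ⟨x, Or.inr hx, hv⟩

theorem cc_add {S K : Finset V} (h : ∀ x ∈ K, x ∉ S) :
    cc N (S ∪ K) = cc N S + (((nb N K \ nb N S).card : ℤ) - (K.card : ℤ)) := by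
  unfold cc
  rw [nb_union]
  have h1 : (nb N S ∪ nb N K).card = (nb N K \ nb N S).card + (nb N S).card := by
    rw [union_comm, card_sdiff_add_card]
  have h2 : (S ∪ K).card = S.card + K.card :=
    card_union_of_disjoint (disjoint_left.2 fun x hx hx' => h x hx' hx)
  rw [h1, h2]
  push_cast
  ring

theorem sum_upd (f g : V → Finset V) (a : V) (h : ∀ x, x ≠ a → g x = f x) :
    ∑ x, cc N (g x) = ∑ x, cc N (f x) + (cc N (g a) - cc N (f a)) := by
  have e : ∀ x, cc N (g x) = cc N (f x) + if x = a then cc N (g a) - cc N (f a) else 0 := by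
    intro x
    by_cases hx : x = a
    · subst hx; simp
    · rw [h x hx]; simp [hx]
  rw [sum_congr rfl fun x _ => e x, sum_add_distrib, sum_ite_eq']
  simp

theorem dc (F : V → Finset V) : ∑ b, ((F b).card : ℤ) =
    ∑ a, ((Fintype.card V : ℤ) - ((univ.filter fun b => a ∉ F b).card : ℤ)) := by
  have e1 : ∀ b, ((F b).card : ℤ) = ∑ a, if a ∈ F b then (1 : ℤ) else 0 := by
    intro b; simp
  rw [sum_congr rfl fun b _ => e1 b, sum_comm]
  refine sum_congr rfl fun a _ => ?_
  have h2 := card_filter_add_card_filter_not (s := (univ : Finset V)) (fun b => a ∈ F b)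
  rw [card_univ] at h2
  have h3 : (∑ b, if a ∈ F b then (1 : ℤ) else 0) = ((univ.filter fun b => a ∈ F b).card : ℤ) := by
    simp
  rw [h3]
  omega

/-- the complement of `T` -/
def QQ (T : V → Finset V) (a : V) : Finset V := univ.filter fun b => b = a ∨ a ∉ T b

theorem mem_QQ {T : V → Finset V} {a b : V} : b ∈ QQ T a ↔ b = a ∨ a ∉ T b := by
  simp [QQ]

theorem outer (hN : ∀ x, x ∈ N x) {P T : V → Finset V} (hF : Fe N P T)
    (hmin : ∀ P' T', Fe N P' T' → ∑ a, cc N (P a) + ∑ b, cc N (T b) ≤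
      ∑ a, cc N (P' a) + ∑ b, cc N (T' b)) :
    ∑ a, cc N (io N P a) + ∑ b, cc N (io N T b) ≤ ∑ a, cc N (P a) + ∑ b, cc N (T b) := by
  set Q := QQ T with hQ
  have hPQ : ∀ a, P a ⊆ Q a := by
    intro a b hb
    rw [hQ, mem_QQ]
    by_cases h : a ∈ T b
    · exact Or.inl (hF.d a b hb h).symm
    · exact Or.inr h
  have haP : ∀ a, a ∈ P a := fun a => hF.p a (hN a)
  have haT : ∀ a, a ∈ T a := fun a => hF.t a (hN a)
  -- rows
  have hR : ∀ a, ∀ K ⊆ Q a \ P a, K.card ≤ (nb N K \ nb N (P a)).card := by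
    intro a K hK
    have hK1 : ∀ x ∈ K, x ∉ P a := fun x hx => (mem_sdiff.1 (hK hx)).2
    have hF' : Fe N (fun x => if x = a then P a ∪ K else P x) T := by
      refine ⟨fun x => ?_, hF.t, fun x y hy hx => ?_⟩
      · by_cases h : x = a
        · subst h
          simp only [if_true]
          exact (hF.p x).trans subset_union_left
        · simp only [if_neg h]
          exact hF.p x
      · by_cases h : x = a
        · subst h
          simp only [if_true, mem_union] at hy
          rcases hy with hy | hy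
          · exact hF.d x y hy hx
          · have := (mem_sdiff.1 (hK hy)).1
            rw [hQ, mem_QQ] at this
            rcases this with h | h
            · exact h.symm
            · exact absurd hx h
        · simp only [if_neg h] at hy
          exact hF.d x y hy hx
    have h1 := hmin _ _ hF'
    have h2 := sum_upd (N := N) P (fun x => if x = a then P a ∪ K else P x) a
      (fun x hx => by simp [hx])
    simp only [if_true] at h2
    rw [h2, cc_add hK1] at h1
    omega
  -- columns
  have hC : ∀ b, ∀ K : Finset V, (∀ a ∈ K, b ∈ Q a ∧ b ∉ P a) →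
      K.card ≤ ((nb N K).filter fun v => b ∈ io N Q v).card := by
    intro b K hK
    have hK0 : ∀ a ∈ K, a ∉ T b := by
      intro a ha h
      obtain ⟨h1, h2⟩ := hK a ha
      rw [hQ, mem_QQ] at h1
      rcases h1 with h1 | h1
      · rw [h1] at h2; exact h2 (haP a)
      · exact h1 h
    have hF' : Fe N P (fun x => if x = b then T b ∪ K else T x) := by
      refine ⟨hF.p, fun x => ?_, fun x y hy hx => ?_⟩
      · by_cases h : x = b
        · subst h
          simp only [if_true]
          exact (hF.t x).trans subset_union_left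
        · simp only [if_neg h]
          exact hF.t x
      · by_cases h : y = b
        · subst h
          simp only [if_true, mem_union] at hx
          rcases hx with hx | hx
          · exact hF.d x y hy hx
          · exact absurd hy (hK x hx).2
        · simp only [if_neg h] at hx
          exact hF.d x y hy hx
    have h1 := hmin _ _ hF'
    have h2 := sum_upd (N := N) T (fun x => if x = b then T b ∪ K else T x) b
      (fun x hx => by simp [hx])
    simp only [if_true] at h2
    rw [h2, cc_add hK0] at h1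
    have h3 : (nb N K \ nb N (T b)).card ≤ ((nb N K).filter fun v => b ∈ io N Q v).card := by
      refine card_le_card fun v hv => ?_
      rw [mem_sdiff] at hv
      refine mem_filter.2 ⟨hv.1, mem_io.2 fun s hs => ?_⟩
      rw [hQ, mem_QQ]
      right
      intro h4
      exact hv.2 (mem_nb.2 ⟨s, h4, hs⟩)
    omega
  have hstar := star hR hC
  -- the sets
  have f1 : ∀ a, (univ.filter fun b => a ∉ T b) = (Q a).erase a := by
    intro a
    ext b
    rw [mem_filter, mem_erase, hQ, mem_QQ]
    constructor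
    · rintro ⟨-, h⟩
      refine ⟨fun hb => ?_, Or.inr h⟩
      rw [hb] at h
      exact h (haT a)
    · rintro ⟨h1, h2 | h2⟩
      · exact absurd h2 h1
      · exact ⟨mem_univ _, h2⟩
  have aQ : ∀ a, a ∈ Q a := fun a => hPQ a (haP a)
  have aQo : ∀ a, a ∈ io N Q a := by
    intro a
    exact mem_io.2 fun s hs => hPQ s (hF.p s hs)
  have hQoIn : ∀ a b, a ∈ N b → b ∈ io N Q a → b = a := by
    intro a b hab hb
    have := mem_io.1 hb a (hN a)
    rw [hQ, mem_QQ] at this
    rcases this with h | h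
    · exact h
    · exact absurd (hF.t b hab) h
  have f2 : ∀ a, (univ.filter fun b => a ∉ nb N (T b)) = (io N Q a).erase a := by
    intro a
    ext b
    rw [mem_filter, mem_erase]
    constructor
    · rintro ⟨-, h⟩
      refine ⟨fun hb => ?_, mem_io.2 fun s hs => ?_⟩
      · rw [hb] at h
        exact h (mem_nb.2 ⟨a, haT a, hN a⟩)
      · rw [hQ, mem_QQ]
        right
        intro h4
        exact h (mem_nb.2 ⟨s, h4, hs⟩)
    · rintro ⟨h1, h2⟩
      refine ⟨mem_univ _, fun h => ?_⟩
      obtain ⟨y, hy, hay⟩ := mem_nb.1 h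
      have h3 := mem_io.1 h2 y hay
      rw [hQ, mem_QQ] at h3
      rcases h3 with h3 | h3
      · subst h3
        exact h1 (hQoIn a b hay h2)
      · exact h3 hy
  have f3 : ∀ a, (univ.filter fun b => a ∉ io N T b) = (nb N (Q a)).erase a := by
    intro a
    ext b
    rw [mem_filter, mem_erase]
    constructor
    · rintro ⟨-, h⟩
      refine ⟨fun hb => ?_, ?_⟩
      · rw [hb] at h
        exact h (hF.self_t hN a)
      · rw [mem_io] at h
        push Not at h
        obtain ⟨s, h1, h2⟩ := h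
        exact mem_nb.2 ⟨s, mem_QQ.2 (Or.inr h2), h1⟩
    · rintro ⟨h1, h2⟩
      refine ⟨mem_univ _, fun h => ?_⟩
      obtain ⟨y, hy, hby⟩ := mem_nb.1 h2
      rw [hQ, mem_QQ] at hy
      rcases hy with hy | hy
      · subst hy
        have h3 := mem_io.1 h b (hN b)
        exact h1 (hF.d y b (hF.p y hby) h3).symm
      · exact hy (mem_io.1 h y hby)
  have f4 : ∀ a, (nb N (io N Q a)).erase a ⊆ (univ.filter fun b => a ∉ nb N (io N T b)) := by
    intro a b hb
    rw [mem_erase] at hb
    obtain ⟨h1, h2⟩ := hb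
    refine mem_filter.2 ⟨mem_univ _, fun h => ?_⟩
    obtain ⟨x, hx, hbx⟩ := mem_nb.1 h2
    obtain ⟨y, hy, hay⟩ := mem_nb.1 h
    -- `x ∈ Q y`, `b ∈ N x`, `y ∈ io T b`
    have h3 := mem_io.1 hx y hay
    rw [hQ, mem_QQ] at h3
    have h4 : y ∈ T x := mem_io.1 hy x hbx
    rcases h3 with h3 | h3
    · subst h3
      -- `x ∈ io Q a`, `a ∈ N x`
      have h5 := hQoIn a x hay hx
      subst h5
      exact h1 (hF.d x b (hF.p x hbx) (mem_io.1 hy b (hN b))).symm
    · exact h3 h4
  have ce : ∀ (S : Finset V) (a : V), a ∈ S → ((S.erase a).card : ℤ) = S.card - 1 := by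
    intro S a ha
    have := card_erase_add_one ha
    omega
  have g1 : ∑ b, cc N (T b) = ∑ a, (((Q a).card : ℤ) - ((io N Q a).card : ℤ)) := by
    unfold cc
    rw [sum_sub_distrib, dc T, dc (fun b => nb N (T b)), ← sum_sub_distrib]
    refine sum_congr rfl fun a _ => ?_
    rw [f1, f2, ce _ _ (aQ a), ce _ _ (aQo a)]
    ring
  have anQ : ∀ a, a ∈ nb N (Q a) := fun a => subset_nb hN _ (aQ a)
  have anQo : ∀ a, a ∈ nb N (io N Q a) := fun a => subset_nb hN _ (aQo a)
  have g2 : ∑ b, cc N (io N T b) ≤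
      ∑ a, (((nb N (Q a)).card : ℤ) - ((nb N (io N Q a)).card : ℤ)) := by
    unfold cc
    rw [sum_sub_distrib, dc (fun b => io N T b), dc (fun b => nb N (io N T b)),
      ← sum_sub_distrib]
    refine sum_le_sum fun a _ => ?_
    have h1 := card_le_card (f4 a)
    have h2 := ce _ _ (anQo a)
    have h3 := ce _ _ (anQ a)
    rw [f3]
    omega
  have g3 : ∑ a, (cc N (io N P a) + (((nb N (Q a)).card : ℤ) - ((nb N (io N Q a)).card : ℤ))) ≤
      ∑ a, (cc N (P a) + (((Q a).card : ℤ) - ((io N Q a).card : ℤ))) := by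
    have h1 : ∀ a, (((nb N (Q a) \ nb N (P a)).card : ℤ) - ((Q a \ P a).card : ℤ)) =
        ((nb N (Q a)).card : ℤ) - (nb N (P a)).card - ((Q a).card - (P a).card) := by
      intro a
      have e1 := card_sdiff_add_card_eq_card (nb_mono (N := N) (hPQ a))
      have e2 := card_sdiff_add_card_eq_card (hPQ a)
      omega
    have h2 : ∀ z, (((nb N (io N Q z) \ io N (fun s => nb N (P s)) z).card : ℤ) -
        ((io N Q z \ io N P z).card : ℤ)) ≤ ((nb N (io N Q z)).card : ℤ) -
          (nb N (io N P z)).card - ((io N Q z).card - (io N P z).card) := by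
      intro z
      have hsub := io_mono (N := N) hPQ z
      have e1 := card_sdiff_add_card_eq_card (nb_mono (N := N) hsub)
      have e2 := card_sdiff_add_card_eq_card hsub
      have e3 : (nb N (io N Q z) \ io N (fun s => nb N (P s)) z).card ≤
          (nb N (io N Q z) \ nb N (io N P z)).card := by
        refine card_le_card (sdiff_subset_sdiff (subset_refl _) fun v hv => ?_)
        obtain ⟨x, hx, hvx⟩ := mem_nb.1 hv
        exact mem_io.2 fun s hs => mem_nb.2 ⟨x, mem_io.1 hx s hs, hvx⟩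
      omega
    have h3 := hstar.trans (sum_le_sum fun z _ => h2 z)
    rw [sum_congr rfl fun a _ => h1 a] at h3
    have h4 := sub_nonneg.2 h3
    rw [← sum_sub_distrib] at h4
    rw [← sub_nonneg, ← sum_sub_distrib]
    refine h4.trans (le_of_eq (sum_congr rfl fun a _ => ?_))
    unfold cc
    ring
  rw [g1]
  rw [sum_add_distrib, sum_add_distrib] at g3
  linarith

/-- the contradiction -/
theorem no_ce [Nonempty V] (hN : ∀ x, x ∈ N x) (hA : ∀ a b, b ∈ N a → a ∈ N b → a = b)
    (hG : ∀ S, cc N (nb N S) ≤ cc N S) (hG' : ∀ S, nb N S ≠ S → cc N (nb N S) < cc N S)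
    (hout : ∀ a, ∃ b, b ≠ a ∧ b ∈ N a) : False := by
  classical
  obtain ⟨⟨P, T⟩, hPT, hmin⟩ := exists_min_image
    (univ.filter fun x : (V → Finset V) × (V → Finset V) => Fe N x.1 x.2)
    (fun x => ∑ a, cc N (x.1 a) + ∑ b, cc N (x.2 b))
    ⟨(N, N), mem_filter.2 ⟨mem_univ _, ⟨fun _ => subset_refl _, fun _ => subset_refl _,
      fun a b h1 h2 => hA a b h1 h2⟩⟩⟩
  have hF : Fe N P T := (mem_filter.1 hPT).2
  have hmin' : ∀ P' T', Fe N P' T' → ∑ a, cc N (P a) + ∑ b, cc N (T b) ≤
      ∑ a, cc N (P' a) + ∑ b, cc N (T' b) :=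
    fun P' T' h => hmin (P', T') (mem_filter.2 ⟨mem_univ _, h⟩)
  have h1 := outer hN hF hmin'
  have h2 := hmin' _ _ (hF.inner hN)
  have h3 : ∑ b, cc N (nb N (io N T b)) ≤ ∑ b, cc N (io N T b) := sum_le_sum fun b _ => hG _
  have h4 : ∀ a, nb N (io N P a) = io N P a := by
    by_contra hcon
    push Not at hcon
    obtain ⟨a, ha⟩ := hcon
    have : ∑ a, cc N (nb N (io N P a)) < ∑ a, cc N (io N P a) :=
      sum_lt_sum (fun b _ => hG _) ⟨a, mem_univ _, hG' _ ha⟩
    linarith
  -- a minimal closed set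
  obtain ⟨C, hC, hCmin⟩ := exists_min_image
    (univ.filter fun S : Finset V => S.Nonempty ∧ nb N S = S) card
    ⟨univ, mem_filter.2 ⟨mem_univ _, univ_nonempty,
      (subset_univ _).antisymm (subset_nb hN _)⟩⟩
  obtain ⟨hCne, hCcl⟩ := (mem_filter.1 hC).2
  obtain ⟨a, ha⟩ := hCne
  obtain ⟨b, hba, hb⟩ := hout a
  have hbC : b ∈ C := by
    rw [← hCcl]
    exact mem_nb.2 ⟨a, ha, hb⟩
  have h5 : C ⊆ io N P b := by
    have h6 : (C ∩ io N P b) ∈ univ.filter fun S : Finset V => S.Nonempty ∧ nb N S = S := by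
      refine mem_filter.2 ⟨mem_univ _, ⟨b, mem_inter.2 ⟨hbC, hF.self_p hN b⟩⟩, ?_⟩
      refine Subset.antisymm ?_ (subset_nb hN _)
      refine subset_inter ?_ ?_
      · conv_rhs => rw [← hCcl]
        exact nb_mono inter_subset_left
      · conv_rhs => rw [← h4 b]
        exact nb_mono inter_subset_right
    have h7 := hCmin _ h6
    have h8 : C ∩ io N P b = C := eq_of_subset_of_card_le inter_subset_left h7
    rw [← h8]
    exact inter_subset_right
  have h9 : a ∈ P b := io_sub hN P b (h5 ha)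
  exact hba (hF.d b a h9 (hF.t a hb))

end Vale.Agent.P038.H315
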