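import Vale.Agent.P038.Defs
import Vale.Agent.P038.H315.Outer

/-! Seymour's second neighbourhood conjecture. -/

set_option autoImplicit false
set_option linter.all false

namespace Vale.Agent.P038.H315

open Finset

universe u

variable {V : Type u} [Fintype V]

/-- a counterexample -/
def CE (D : OGraph V) : Prop := ∀ v, (N2 D v).card < (N1 D v).card

/-- the number of arcs -/
noncomputable def arcs (D : OGraph V) : ℕ := ∑ v, (N1 D v).card

open Classical in
/-- closed out-neighbourhoods -/
noncomputable def cn (D : OGraph V) (v : V) : Finset V := insert v (N1 D v)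

theorem mem_cn {D : OGraph V} {v x : V} : x ∈ cn D v ↔ x = v ∨ D.arc v x := by
  classical
  unfold cn
  rw [mem_insert, mem_N1]

theorem self_cn (D : OGraph V) (v : V) : v ∈ cn D v := mem_cn.2 (Or.inl rfl)

/-- deletion of all arcs from `X` that do not end in `X ∪ T` -/
def del (D : OGraph V) (X T : Finset V) : OGraph V where
  arc u v := D.arc u v ∧ (u ∈ X → v ∈ X ∨ v ∈ T)
  loopless v h := D.loopless v h.1
  asymm u v h h' := D.asymm u v h.1 h'.1

/-- the key inequality for arc-minimal counterexamples -/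
theorem G [DecidableEq V] {D : OGraph V} (hD : CE D) (hmin : ∀ D' : OGraph V, CE D' → arcs D ≤ arcs D')
    (X : Finset V) (hX : (nb (cn D) X \ X).Nonempty) :
    (nb (cn D) (nb (cn D) X) \ nb (cn D) X).card < (nb (cn D) X \ X).card := by
  by_contra hcon
  rw [not_lt] at hcon
  set N := cn D with hNd
  have hN : ∀ x, x ∈ N x := self_cn D
  set L := nb N X \ X with hL
  set dd : Finset V → ℤ := fun T => ((nb N T \ X).card : ℤ) - 2 * (T.card : ℤ) with hdd
  obtain ⟨T, hT, hTmin⟩ := exists_min_image (L.powerset.erase L) dd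
    ⟨∅, mem_erase.2 ⟨hX.ne_empty.symm, empty_mem_powerset _⟩⟩
  obtain ⟨hTL, hTs⟩ := mem_erase.1 hT
  rw [mem_powerset] at hTs
  have hd0 : dd T ≤ 0 := by
    have := hTmin ∅ (mem_erase.2 ⟨hX.ne_empty.symm, empty_mem_powerset _⟩)
    simpa [hdd, nb] using this
  have hdL : 0 ≤ dd L := by
    have h1 : L ∪ (nb N (nb N X) \ nb N X) ⊆ nb N L \ X := by
      intro v hv
      rcases mem_union.1 hv with hv | hv
      · exact mem_sdiff.2 ⟨subset_nb hN _ hv, (mem_sdiff.1 hv).2⟩
      · obtain ⟨h1, h2⟩ := mem_sdiff.1 hv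
        obtain ⟨x, hx, hvx⟩ := mem_nb.1 h1
        have hxX : x ∉ X := fun h => h2 (mem_nb.2 ⟨x, h, hvx⟩)
        exact mem_sdiff.2 ⟨mem_nb.2 ⟨x, mem_sdiff.2 ⟨hx, hxX⟩, hvx⟩,
          fun h => h2 (subset_nb hN _ h)⟩
    have h2 : (L ∪ (nb N (nb N X) \ nb N X)).card = L.card + (nb N (nb N X) \ nb N X).card :=
      card_union_of_disjoint (disjoint_left.2 fun v h3 h4 =>
        (mem_sdiff.1 h4).2 (mem_sdiff.1 h3).1)
    have h3 := card_le_card h1
    simp only [hdd]
    omega
  have hTall : ∀ T' ⊆ L, dd T ≤ dd T' := by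
    intro T' hT'
    by_cases h : T' = L
    · rw [h]; exact hd0.trans hdL
    · exact hTmin T' (mem_erase.2 ⟨h, mem_powerset.2 hT'⟩)
  -- (1)
  have h1 : ∀ D' : Finset V, D' ⊆ L \ T → 2 * D'.card ≤ (nb N D' \ (nb N T ∪ X)).card := by
    intro D' hD'
    have h2 := hTall (T ∪ D') (union_subset hTs (hD'.trans sdiff_subset))
    have h3 : (T ∪ D').card = T.card + D'.card :=
      card_union_of_disjoint (disjoint_left.2 fun x hx hx' => (mem_sdiff.1 (hD' hx')).2 hx)
    have h4 : (nb N (T ∪ D') \ X).card ≤ (nb N T \ X).card + (nb N D' \ (nb N T ∪ X)).card := by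
      refine le_trans (card_le_card ?_) (card_union_le _ _)
      intro v hv
      rw [nb_union, mem_sdiff, mem_union] at hv
      rw [mem_union, mem_sdiff, mem_sdiff, mem_union]
      by_cases h : v ∈ nb N T
      · exact Or.inl ⟨h, hv.2⟩
      · right
        exact ⟨hv.1.resolve_left h, fun h' => h'.elim h hv.2⟩
    simp only [hdd] at h2
    omega
  -- the new graph
  set D' := del D X T with hDd
  have hN1' : ∀ v, v ∉ X → N1 D' v = N1 D v := by
    intro v hv
    ext x
    rw [mem_N1, mem_N1]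
    exact ⟨fun h => h.1, fun h => ⟨h, fun h' => absurd h' hv⟩⟩
  have hN1s : ∀ v, N1 D' v ⊆ N1 D v := by
    intro v x hx
    rw [mem_N1] at hx ⊢
    exact hx.1
  set DY : V → Finset V := fun y => N1 D y \ (X ∪ T) with hDY
  have hN1X : ∀ y, y ∈ X → N1 D' y = N1 D y \ DY y := by
    intro y hy
    ext x
    simp only [hDY, mem_sdiff, mem_union, mem_N1]
    constructor
    · rintro ⟨h2, h3⟩
      exact ⟨h2, fun h4 => h4.2 (h3 hy)⟩
    · rintro ⟨h2, h3⟩
      refine ⟨h2, fun _ => ?_⟩
      by_contra h4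
      exact h3 ⟨h2, h4⟩
  have hDYsub : ∀ y, DY y ⊆ N1 D y := fun y => sdiff_subset
  have hDYL : ∀ y, y ∈ X → DY y ⊆ L \ T := by
    intro y hy x hx
    simp only [hDY, mem_sdiff, mem_union, mem_N1, not_or] at hx
    obtain ⟨h2, h3, h4⟩ := hx
    exact mem_sdiff.2 ⟨mem_sdiff.2 ⟨mem_nb.2 ⟨y, hy, mem_cn.2 (Or.inr h2)⟩, h3⟩, h4⟩
  have hCE : CE D' := by
    intro y
    by_cases hy : y ∈ X
    · set E := nb N (DY y) \ (nb N T ∪ X) with hE
      have h2 : 2 * (DY y).card ≤ E.card := h1 (DY y) (hDYL y hy)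
      have hEs : E ⊆ N2 D y ∪ DY y := by
        intro z hz
        rw [hE, mem_sdiff, mem_union, not_or] at hz
        obtain ⟨hz1, hz2, hz3⟩ := hz
        rw [mem_union]
        by_cases hzD : z ∈ DY y
        · exact Or.inr hzD
        · left
          obtain ⟨x, hx, hzx⟩ := mem_nb.1 hz1
          have hzT : z ∉ T := fun h => hz2 (subset_nb hN _ h)
          rw [mem_N2]
          refine ⟨?_, ?_, ?_⟩
          · rintro rfl; exact hz3 hy
          · intro h
            exact hzD (mem_sdiff.2 ⟨mem_N1.2 h, fun h' => (mem_union.1 h').elim hz3 hzT⟩)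
          · rcases mem_cn.1 hzx with h | h
            · rw [h] at hzD; exact absurd hx hzD
            · exact ⟨x, mem_N1.1 (hDYsub y hx), h⟩
      have hN2s : N2 D' y ⊆ (N2 D y ∪ DY y) \ E := by
        intro z hz
        obtain ⟨hz1, hz2, c, hc, hcz⟩ := mem_N2.1 hz
        rw [mem_sdiff, mem_union]
        constructor
        · by_cases h : D.arc y z
          · right
            by_contra h3
            refine hz2 ⟨h, fun _ => ?_⟩
            by_contra h4
            exact h3 (mem_sdiff.2 ⟨mem_N1.2 h, fun h5 => h4 (mem_union.1 h5)⟩)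
          · exact Or.inl (mem_N2.2 ⟨hz1, h, c, hc.1, hcz.1⟩)
        · intro hzE
          rw [hE, mem_sdiff, mem_union, not_or] at hzE
          obtain ⟨-, h4, h5⟩ := hzE
          rcases hc.2 hy with h | h
          · rcases hcz.2 h with h6 | h6
            · exact h5 h6
            · exact h4 (subset_nb hN _ h6)
          · exact h4 (mem_nb.2 ⟨c, h, mem_cn.2 (Or.inr hcz.1)⟩)
      have h3 := card_le_card hN2s
      have h4 := card_sdiff_add_card_eq_card hEs
      have h5 := card_union_le (N2 D y) (DY y)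
      have h6 := card_sdiff_add_card_eq_card (hDYsub y)
      have h7 := hD y
      rw [hN1X y hy]
      omega
    · rw [hN1' y hy]
      refine lt_of_le_of_lt (card_le_card ?_) (hD y)
      intro z hz
      obtain ⟨hz1, hz2, c, hc, hcz⟩ := mem_N2.1 hz
      refine mem_N2.2 ⟨hz1, fun h => hz2 ⟨h, fun h' => absurd h' hy⟩, c, hc.1, hcz.1⟩
  have hlt : arcs D' < arcs D := by
    obtain ⟨x, hx, hxT⟩ : ∃ x ∈ L, x ∉ T := by
      by_contra h
      push Not at h
      exact hTL (Subset.antisymm hTs h)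
    obtain ⟨y, hy, hxy⟩ := mem_nb.1 (mem_sdiff.1 hx).1
    have hxX := (mem_sdiff.1 hx).2
    refine sum_lt_sum (fun v _ => card_le_card (hN1s v)) ⟨y, mem_univ _, ?_⟩
    refine card_lt_card ⟨hN1s y, fun h => ?_⟩
    have hxy' : D.arc y x := by
      rcases mem_cn.1 hxy with h | h
      · rw [h] at hxX; exact absurd hy hxX
      · exact h
    have := mem_N1.1 (h (mem_N1.2 hxy'))
    rcases this.2 hy with h | h
    · exact hxX h
    · exact hxT h
  exact absurd (hmin D' hCE) (not_le.2 hlt)

theorem G_cc [DecidableEq V] {D : OGraph V} (hD : CE D)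
    (hmin : ∀ D' : OGraph V, CE D' → arcs D ≤ arcs D') (X : Finset V) (hX : nb (cn D) X ≠ X) :
    cc (cn D) (nb (cn D) X) < cc (cn D) X := by
  have h1 := subset_nb (self_cn D) X
  have h2 := subset_nb (self_cn D) (nb (cn D) X)
  have hne : (nb (cn D) X \ X).Nonempty := by
    rw [sdiff_nonempty]
    exact fun h => hX (Subset.antisymm h h1)
  have h3 := G hD hmin X hne
  have h4 := card_sdiff_add_card_eq_card h1
  have h5 := card_sdiff_add_card_eq_card h2
  unfold cc
  omega

/-- **Seymour's second neighbourhood conjecture** -/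
theorem snc [Nonempty V] (D : OGraph V) : ∃ v, (N1 D v).card ≤ (N2 D v).card := by
  classical
  by_contra hcon
  push Not at hcon
  have hne : {D : OGraph V | CE D}.Nonempty := ⟨D, hcon⟩
  set D0 := Function.argminOn arcs {D : OGraph V | CE D} hne with hD0
  have hCE : CE D0 := Function.argminOn_mem arcs {D : OGraph V | CE D} hne
  have hmin : ∀ D' : OGraph V, CE D' → arcs D0 ≤ arcs D' := fun D' hD' =>
    Function.argminOn_le arcs {D : OGraph V | CE D} hD'
  refine no_ce (N := cn D0) (self_cn D0) ?_ ?_ (fun S hS => G_cc hCE hmin S hS) ?_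
  · intro a b hb ha
    rcases mem_cn.1 hb with h | h
    · exact h.symm
    · rcases mem_cn.1 ha with h' | h'
      · exact h'
      · exact absurd h' (D0.asymm _ _ h)
  · intro S
    by_cases h : nb (cn D0) S = S
    · rw [h]
    · exact (G_cc hCE hmin S h).le
  · intro a
    have h : (N1 D0 a).Nonempty := by
      rw [← card_pos]
      exact lt_of_le_of_lt (Nat.zero_le _) (hCE a)
    obtain ⟨b, hb⟩ := h
    rw [mem_N1] at hb
    refine ⟨b, ?_, mem_cn.2 (Or.inr hb)⟩
    rintro rfl
    exact D0.loopless _ hb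

end Vale.Agent.P038.H315
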