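import Mathlib

/-! Two families of sets with row and column Hall conditions. -/

set_option autoImplicit false
set_option linter.all false

namespace Vale.Agent.P038.H315

open Finset

section Abs

variable {V : Type*} [Fintype V] [DecidableEq V]

/-- closed neighbourhood of a set -/
def nb (N : V → Finset V) (S : Finset V) : Finset V := S.biUnion N

/-- intersections over the closed in-neighbourhood -/
def io (N P : V → Finset V) (v : V) : Finset V := univ.filter fun b => ∀ s, v ∈ N s → b ∈ P s

variable {N : V → Finset V}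

theorem mem_nb {S : Finset V} {v : V} : v ∈ nb N S ↔ ∃ x ∈ S, v ∈ N x := by simp [nb]

theorem mem_io {P : V → Finset V} {v b : V} : b ∈ io N P v ↔ ∀ s, v ∈ N s → b ∈ P s := by
  simp [io]

theorem nb_mono {S T : Finset V} (h : S ⊆ T) : nb N S ⊆ nb N T := by
  intro v hv
  obtain ⟨x, hx, hv⟩ := mem_nb.1 hv
  exact mem_nb.2 ⟨x, h hx, hv⟩

theorem subset_nb (hN : ∀ x, x ∈ N x) (S : Finset V) : S ⊆ nb N S :=
  fun x hx => mem_nb.2 ⟨x, hx, hN x⟩

/-- the value of a set -/
def vl (N : V → Finset V) (β W T : Finset V) : ℤ :=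
  (T.card : ℤ) - (((nb N T \ β) \ W).card : ℤ)

/-- the maximal value -/
noncomputable def mm (N : V → Finset V) (G β W : Finset V) : ℤ :=
  G.powerset.sup' ⟨∅, empty_mem_powerset G⟩ (vl N β W)

theorem vl_le_mm {G β W T : Finset V} (h : T ⊆ G) : vl N β W T ≤ mm N G β W :=
  le_sup' (vl N β W) (mem_powerset.2 h)

theorem exists_mm (G β W : Finset V) : ∃ T, T ⊆ G ∧ mm N G β W = vl N β W T := by
  obtain ⟨T, h1, h2⟩ := exists_mem_eq_sup'
    (⟨∅, empty_mem_powerset G⟩ : G.powerset.Nonempty) (vl N β W)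
  exact ⟨T, mem_powerset.1 h1, h2⟩

theorem mm_univ (G β : Finset V) : mm N G β univ = G.card := by
  apply le_antisymm
  · obtain ⟨T, hT, h⟩ := exists_mm (N := N) G β univ
    rw [h]
    unfold vl
    have := card_le_card hT
    omega
  · refine le_trans ?_ (vl_le_mm (N := N) (β := β) (W := univ) (subset_refl G))
    unfold vl
    simp

theorem mm_empty (G β : Finset V) (h : ∀ T ⊆ G, T.card ≤ (nb N T \ β).card) :
    mm N G β ∅ = 0 := by
  apply le_antisymm
  · obtain ⟨T, hT, h1⟩ := exists_mm (N := N) G β ∅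
    rw [h1]
    unfold vl
    have := h T hT
    rw [sdiff_empty]
    omega
  · refine le_trans ?_ (vl_le_mm (N := N) (β := β) (W := ∅) (empty_subset G))
    simp [vl, nb]

theorem mm_mono (G β W : Finset V) (u : V) : mm N G β W ≤ mm N G β (insert u W) := by
  obtain ⟨T, hT, h⟩ := exists_mm (N := N) G β W
  rw [h]
  refine le_trans ?_ (vl_le_mm hT)
  unfold vl
  have : ((nb N T \ β) \ insert u W).card ≤ ((nb N T \ β) \ W).card :=
    card_le_card (sdiff_subset_sdiff (subset_refl _) (subset_insert _ _))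
  omega

theorem mm_succ (G β W : Finset V) (u : V) : mm N G β (insert u W) ≤ mm N G β W + 1 := by
  obtain ⟨T, hT, h⟩ := exists_mm (N := N) G β (insert u W)
  have h2 := vl_le_mm (N := N) (β := β) (W := W) hT
  rw [h]
  unfold vl at h2 ⊢
  have : ((nb N T \ β) \ W).card ≤ ((nb N T \ β) \ insert u W).card + 1 := by
    refine le_trans (card_le_card ?_) (card_insert_le u _)
    intro v hv
    simp only [mem_sdiff, mem_insert] at hv ⊢
    by_cases hvu : v = u
    · exact Or.inl hvu
    · exact Or.inr ⟨hv.1, fun h => h.elim hvu hv.2⟩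
  omega

theorem mm_same {G β W : Finset V} {u : V} (hu : u ∉ nb N G \ β) :
    mm N G β (insert u W) ≤ mm N G β W := by
  obtain ⟨T, hT, h⟩ := exists_mm (N := N) G β (insert u W)
  rw [h]
  refine le_trans (le_of_eq ?_) (vl_le_mm hT)
  unfold vl
  have : (nb N T \ β) \ insert u W = (nb N T \ β) \ W := by
    ext v
    simp only [mem_sdiff, mem_insert]
    constructor
    · rintro ⟨h1, h2⟩
      exact ⟨h1, fun h => h2 (Or.inr h)⟩
    · rintro ⟨h1, h2⟩
      refine ⟨h1, fun h3 => h3.elim (fun h4 => ?_) h2⟩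
      subst h4
      exact hu (mem_sdiff.2 ⟨nb_mono hT h1.1, h1.2⟩)
  rw [this]

/-- the comparison of two rows -/
theorem mm_M {P' Q' L G β W : Finset V} {u : V} (hL : L ⊆ Q') (hG : G = Q' \ P')
    (hβ : β ⊆ nb N P') (hu : u ∉ nb N P') (huW : u ∉ W) :
    mm N L β (insert u W) + mm N G (nb N P') W ≤
      mm N L β W + mm N G (nb N P') (insert u W) := by
  obtain ⟨T, hT, h⟩ := exists_mm (N := N) L β (insert u W)
  obtain ⟨T', hT', h'⟩ := exists_mm (N := N) G (nb N P') W
  have hTP : ∀ x ∈ T', x ∉ P' := by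
    intro x hx
    have := hT' hx
    rw [hG, mem_sdiff] at this
    exact this.2
  set T1 := (T ∩ P') ∪ (T ∩ T') with hT1
  set T2 := T' ∪ (T \ P') with hT2
  have h1 : T1 ⊆ L := by
    intro x hx
    rw [hT1, mem_union, mem_inter, mem_inter] at hx
    rcases hx with hx | hx <;> exact hT hx.1
  have h2 : T2 ⊆ G := by
    intro x hx
    rw [hT2, mem_union, mem_sdiff] at hx
    rcases hx with hx | hx
    · exact hT' hx
    · rw [hG, mem_sdiff]
      exact ⟨hL (hT hx.1), hx.2⟩
  have h3 := vl_le_mm (N := N) (β := β) (W := W) h1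
  have h4 := vl_le_mm (N := N) (β := nb N P') (W := insert u W) h2
  have hc1 : T1.card = (T ∩ P').card + (T ∩ T').card := by
    rw [hT1]
    refine card_union_of_disjoint (disjoint_left.2 fun x hx hx' => ?_)
    exact hTP x (mem_inter.1 hx').2 (mem_inter.1 hx).2
  have hc2 : T2.card + (T ∩ T').card = T'.card + (T \ P').card := by
    have e : T' ∩ (T \ P') = T ∩ T' := by
      ext x
      simp only [mem_inter, mem_sdiff]
      constructor
      · rintro ⟨h1, h2, -⟩; exact ⟨h2, h1⟩
      · rintro ⟨h1, h2⟩; exact ⟨h2, h1, hTP x h2⟩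
    rw [hT2, ← e]
    exact card_union_add_card_inter _ _
  have hc3 : (T ∩ P').card + (T \ P').card = T.card := card_inter_add_card_sdiff T P'
  -- pointwise comparison of the costs
  have key : ((nb N T1 \ β) \ W).card + ((nb N T2 \ nb N P') \ insert u W).card ≤
      ((nb N T \ β) \ insert u W).card + ((nb N T' \ nb N P') \ W).card := by
    have hT1v : ∀ v, v ∈ nb N T1 → v ∉ nb N P' → v ∈ nb N T ∧ v ∈ nb N T' := by
      intro v hv hvP
      obtain ⟨x, hx, hvx⟩ := mem_nb.1 hv
      rw [hT1, mem_union, mem_inter, mem_inter] at hx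
      rcases hx with hx | hx
      · exact absurd (mem_nb.2 ⟨x, hx.2, hvx⟩) hvP
      · exact ⟨mem_nb.2 ⟨x, hx.1, hvx⟩, mem_nb.2 ⟨x, hx.2, hvx⟩⟩
    have hT1T : nb N T1 ⊆ nb N T := nb_mono (by
      intro x hx
      rw [hT1, mem_union, mem_inter, mem_inter] at hx
      rcases hx with hx | hx <;> exact hx.1)
    have e1 : ((nb N T1 \ β) \ W) ∪ ((nb N T2 \ nb N P') \ insert u W) ⊆
        ((nb N T \ β) \ insert u W) ∪ ((nb N T' \ nb N P') \ W) := by
      intro v hv
      rw [mem_union] at hv ⊢
      simp only [mem_sdiff, mem_insert, not_or] at hv ⊢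
      rcases hv with ⟨⟨h1, h2⟩, h3⟩ | ⟨⟨h1, h2⟩, h3, h4⟩
      · by_cases hvu : v = u
        · right
          rw [hvu] at h1 ⊢
          exact ⟨⟨(hT1v u h1 hu).2, hu⟩, huW⟩
        · left
          exact ⟨⟨hT1T h1, h2⟩, hvu, h3⟩
      · obtain ⟨x, hx, hvx⟩ := mem_nb.1 h1
        rw [hT2, mem_union, mem_sdiff] at hx
        rcases hx with hx | hx
        · right
          exact ⟨⟨mem_nb.2 ⟨x, hx, hvx⟩, h2⟩, h4⟩
        · left
          exact ⟨⟨mem_nb.2 ⟨x, hx.1, hvx⟩, fun h => h2 (hβ h)⟩, h3, h4⟩
    have e2 : ((nb N T1 \ β) \ W) ∩ ((nb N T2 \ nb N P') \ insert u W) ⊆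
        ((nb N T \ β) \ insert u W) ∩ ((nb N T' \ nb N P') \ W) := by
      intro v hv
      rw [mem_inter] at hv ⊢
      simp only [mem_sdiff, mem_insert, not_or] at hv ⊢
      obtain ⟨⟨⟨h1, h2⟩, h3⟩, ⟨⟨h4, h5⟩, h6, h7⟩⟩ := hv
      have h8 := hT1v v h1 h5
      exact ⟨⟨⟨h8.1, h2⟩, h6, h7⟩, ⟨h8.2, h5⟩, h7⟩
    rw [← card_union_add_card_inter, ← card_union_add_card_inter ((nb N T \ β) \ insert u W)]
    exact Nat.add_le_add (card_le_card e1) (card_le_card e2)
  rw [h, h']
  unfold vl at h3 h4 ⊢
  omega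

section Rows

variable {P Q : V → Finset V}

/-- the row Hall condition for the intersections -/
theorem rowHall (hR : ∀ a, ∀ T ⊆ Q a \ P a, T.card ≤ (nb N T \ nb N (P a)).card) (z : V)
    (T : Finset V) (hT : T ⊆ io N Q z \ io N P z) :
    T.card ≤ (nb N T \ io N (fun s => nb N (P s)) z).card := by
  have key : ∀ I : Finset V, (∀ i ∈ I, z ∈ N i) →
      (T.filter fun x => ∃ i ∈ I, x ∉ P i).card ≤
        ((nb N T).filter fun v => ∃ i ∈ I, v ∉ nb N (P i)).card := by
    intro I
    induction I using Finset.induction_on with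
    | empty => intro _; simp
    | insert j I hj ih =>
      intro hI
      have ih' := ih fun i hi => hI i (mem_insert_of_mem hi)
      set T' := T.filter fun x => (∀ i ∈ I, x ∈ P i) ∧ x ∉ P j with hT'
      have h1 : T' ⊆ Q j \ P j := by
        intro x hx
        rw [hT', mem_filter] at hx
        refine mem_sdiff.2 ⟨?_, hx.2.2⟩
        exact mem_io.1 (mem_sdiff.1 (hT hx.1)).1 j (hI j (mem_insert_self _ _))
      have h2 := hR j T' h1
      have h3 : (T.filter fun x => ∃ i ∈ insert j I, x ∉ P i).card ≤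
          (T.filter fun x => ∃ i ∈ I, x ∉ P i).card + T'.card := by
        refine le_trans (card_le_card ?_) (card_union_le _ _)
        intro x hx
        rw [mem_filter] at hx
        rw [mem_union, mem_filter, hT', mem_filter]
        by_cases h : ∃ i ∈ I, x ∉ P i
        · exact Or.inl ⟨hx.1, h⟩
        · right
          push Not at h
          refine ⟨hx.1, h, ?_⟩
          obtain ⟨i, hi, hxi⟩ := hx.2
          rcases mem_insert.1 hi with rfl | hi
          · exact hxi
          · exact absurd (h i hi) hxi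
      have h4 : ((nb N T).filter fun v => ∃ i ∈ I, v ∉ nb N (P i)).card +
          (nb N T' \ nb N (P j)).card ≤
          ((nb N T).filter fun v => ∃ i ∈ insert j I, v ∉ nb N (P i)).card := by
        rw [← card_union_of_disjoint]
        · refine card_le_card fun v hv => ?_
          rw [mem_union, mem_filter, mem_sdiff] at hv
          rw [mem_filter]
          rcases hv with ⟨h5, i, hi, h6⟩ | ⟨h5, h6⟩
          · exact ⟨h5, i, mem_insert_of_mem hi, h6⟩
          · exact ⟨nb_mono (filter_subset _ _) h5, j, mem_insert_self _ _, h6⟩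
        · refine disjoint_left.2 fun v hv hv' => ?_
          rw [mem_filter] at hv
          rw [mem_sdiff] at hv'
          obtain ⟨-, i, hi, h6⟩ := hv
          obtain ⟨x, hx, hvx⟩ := mem_nb.1 hv'.1
          rw [hT', mem_filter] at hx
          exact h6 (mem_nb.2 ⟨x, hx.2.1 i hi, hvx⟩)
      omega
  obtain ⟨I0, hI0⟩ : ∃ I0 : Finset V, ∀ i, i ∈ I0 ↔ z ∈ N i :=
    ⟨univ.filter fun i => z ∈ N i, by simp⟩
  have h := key I0 (fun i hi => (hI0 i).1 hi)
  have e1 : (T.filter fun x => ∃ i ∈ I0, x ∉ P i) = T := by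
    refine filter_true_of_mem fun x hx => ?_
    have := (mem_sdiff.1 (hT hx)).2
    rw [mem_io] at this
    push Not at this
    obtain ⟨s, h1, h2⟩ := this
    exact ⟨s, (hI0 s).2 h1, h2⟩
  rw [e1] at h
  refine le_trans h (card_le_card fun v hv => ?_)
  rw [mem_filter] at hv
  obtain ⟨h1, i, hi, h2⟩ := hv
  refine mem_sdiff.2 ⟨h1, fun h3 => h2 ?_⟩
  exact mem_io.1 h3 i ((hI0 i).1 hi)

/-- the column Hall condition for the intersections -/
theorem colHall (hC : ∀ b, ∀ T : Finset V, (∀ a ∈ T, b ∈ Q a ∧ b ∉ P a) →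
      T.card ≤ ((nb N T).filter fun v => b ∈ io N Q v).card) (u : V)
    (T : Finset V) (hT : ∀ a ∈ T, u ∈ nb N (Q a) ∧ u ∉ nb N (P a)) :
    T.card ≤ ((nb N T).filter fun z => u ∈ nb N (io N Q z) ∧
      u ∉ io N (fun s => nb N (P s)) z).card := by
  have key : ∀ I : Finset V, (∀ i ∈ I, u ∈ N i) →
      (T.filter fun a => ∃ x ∈ I, x ∈ Q a).card ≤
        ((nb N T).filter fun z => ∃ x ∈ I, x ∈ io N Q z).card := by
    intro I
    induction I using Finset.induction_on with
    | empty => intro _; simp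
    | insert j I hj ih =>
      intro hI
      have ih' := ih fun i hi => hI i (mem_insert_of_mem hi)
      set T' := T.filter fun a => (∀ x ∈ I, x ∉ Q a) ∧ j ∈ Q a with hT'
      have h1 : ∀ a ∈ T', j ∈ Q a ∧ j ∉ P a := by
        intro a ha
        rw [hT', mem_filter] at ha
        refine ⟨ha.2.2, fun h => (hT a ha.1).2 (mem_nb.2 ⟨j, h, hI j (mem_insert_self _ _)⟩)⟩
      have h2 := hC j T' h1
      have h3 : (T.filter fun a => ∃ x ∈ insert j I, x ∈ Q a).card ≤
          (T.filter fun a => ∃ x ∈ I, x ∈ Q a).card + T'.card := by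
        refine le_trans (card_le_card ?_) (card_union_le _ _)
        intro a ha
        rw [mem_filter] at ha
        rw [mem_union, mem_filter, hT', mem_filter]
        by_cases h : ∃ x ∈ I, x ∈ Q a
        · exact Or.inl ⟨ha.1, h⟩
        · right
          push Not at h
          refine ⟨ha.1, h, ?_⟩
          obtain ⟨i, hi, hxi⟩ := ha.2
          rcases mem_insert.1 hi with rfl | hi
          · exact hxi
          · exact absurd hxi (h i hi)
      have h4 : ((nb N T).filter fun z => ∃ x ∈ I, x ∈ io N Q z).card +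
          ((nb N T').filter fun v => j ∈ io N Q v).card ≤
          ((nb N T).filter fun z => ∃ x ∈ insert j I, x ∈ io N Q z).card := by
        rw [← card_union_of_disjoint]
        · refine card_le_card fun v hv => ?_
          rw [mem_union, mem_filter, mem_filter] at hv
          rw [mem_filter]
          rcases hv with ⟨h5, i, hi, h6⟩ | ⟨h5, h6⟩
          · exact ⟨h5, i, mem_insert_of_mem hi, h6⟩
          · exact ⟨nb_mono (filter_subset _ _) h5, j, mem_insert_self _ _, h6⟩
        · refine disjoint_left.2 fun v hv hv' => ?_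
          rw [mem_filter] at hv hv'
          obtain ⟨-, i, hi, h6⟩ := hv
          obtain ⟨x, hx, hvx⟩ := mem_nb.1 hv'.1
          rw [hT', mem_filter] at hx
          exact hx.2.1 i hi (mem_io.1 h6 x hvx)
      omega
  obtain ⟨I0, hI0⟩ : ∃ I0 : Finset V, ∀ i, i ∈ I0 ↔ u ∈ N i :=
    ⟨univ.filter fun i => u ∈ N i, by simp⟩
  have h := key I0 (fun i hi => (hI0 i).1 hi)
  have e1 : (T.filter fun a => ∃ x ∈ I0, x ∈ Q a) = T := by
    refine filter_true_of_mem fun a ha => ?_
    obtain ⟨x, h1, h2⟩ := mem_nb.1 (hT a ha).1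
    exact ⟨x, (hI0 x).2 h2, h1⟩
  rw [e1] at h
  refine le_trans h (card_le_card fun z hz => ?_)
  rw [mem_filter] at hz ⊢
  obtain ⟨h1, x, hx, h2⟩ := hz
  refine ⟨h1, mem_nb.2 ⟨x, h2, (hI0 x).1 hx⟩, fun h3 => ?_⟩
  obtain ⟨a, ha, hza⟩ := mem_nb.1 h1
  exact (hT a ha).2 (mem_io.1 h3 a hza)

/-- the main inequality -/
theorem star
    (hR : ∀ a, ∀ T ⊆ Q a \ P a, T.card ≤ (nb N T \ nb N (P a)).card)
    (hC : ∀ b, ∀ T : Finset V, (∀ a ∈ T, b ∈ Q a ∧ b ∉ P a) →
      T.card ≤ ((nb N T).filter fun v => b ∈ io N Q v).card) :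
    ∑ a, (((nb N (Q a) \ nb N (P a)).card : ℤ) - ((Q a \ P a).card : ℤ)) ≤
      ∑ z, (((nb N (io N Q z) \ io N (fun s => nb N (P s)) z).card : ℤ) -
        ((io N Q z \ io N P z).card : ℤ)) := by
  set K : V → Finset V := fun z => nb N (io N Q z) \ io N (fun s => nb N (P s)) z with hK
  set R : V → Finset V := fun a => nb N (Q a) \ nb N (P a) with hRR
  set mK : V → Finset V → ℤ := fun z W =>
    mm N (io N Q z \ io N P z) (io N (fun s => nb N (P s)) z) W with hmK
  set mR : V → Finset V → ℤ := fun a W => mm N (Q a \ P a) (nb N (P a)) W with hmR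
  have step : ∀ (u : V) (W : Finset V), u ∉ W →
      ∑ a, ((if u ∈ R a then (1 : ℤ) else 0) - (mR a (insert u W) - mR a W)) ≤
      ∑ z, ((if u ∈ K z then (1 : ℤ) else 0) - (mK z (insert u W) - mK z W)) := by
    intro u W hu
    set T := univ.filter fun a =>
      0 < (if u ∈ R a then (1 : ℤ) else 0) - (mR a (insert u W) - mR a W) with hT
    have hTR : ∀ a ∈ T, u ∈ R a := by
      intro a ha
      rw [hT, mem_filter] at ha
      by_contra h
      have h2 := mm_mono (N := N) (Q a \ P a) (nb N (P a)) W u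
      have h3 := ha.2
      rw [if_neg h] at h3
      simp only [hmR] at h3
      omega
    have h1 : ∑ a, ((if u ∈ R a then (1 : ℤ) else 0) - (mR a (insert u W) - mR a W)) ≤
        (T.card : ℤ) := by
      have e : (T.card : ℤ) = ∑ a, if a ∈ T then (1 : ℤ) else 0 := by simp
      rw [e]
      refine sum_le_sum fun a _ => ?_
      by_cases ha : a ∈ T
      · rw [if_pos ha, if_pos (hTR a ha)]
        have h2 := mm_mono (N := N) (Q a \ P a) (nb N (P a)) W u
        simp only [hmR]
        omega
      · rw [if_neg ha]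
        rw [hT, mem_filter] at ha
        simp only [mem_univ, true_and, not_lt] at ha
        exact ha
    have h2 := colHall hC u T fun a ha => mem_sdiff.1 (hTR a ha)
    set S := (nb N T).filter fun z => u ∈ nb N (io N Q z) ∧
      u ∉ io N (fun s => nb N (P s)) z with hS
    have h3 : (S.card : ℤ) ≤
        ∑ z, ((if u ∈ K z then (1 : ℤ) else 0) - (mK z (insert u W) - mK z W)) := by
      have e : (S.card : ℤ) = ∑ z, if z ∈ S then (1 : ℤ) else 0 := by simp
      rw [e]
      refine sum_le_sum fun z _ => ?_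
      by_cases hz : z ∈ S
      · rw [if_pos hz]
        rw [hS, mem_filter] at hz
        obtain ⟨h4, h5, h6⟩ := hz
        have huK : u ∈ K z := mem_sdiff.2 ⟨h5, h6⟩
        rw [if_pos huK]
        obtain ⟨a, ha, hza⟩ := mem_nb.1 h4
        have huR := hTR a ha
        rw [hT, mem_filter, if_pos huR] at ha
        have h7 := mm_M (N := N) (P' := P a) (Q' := Q a) (L := io N Q z \ io N P z)
          (G := Q a \ P a) (β := io N (fun s => nb N (P s)) z) (W := W) (u := u)
          (fun x hx => mem_io.1 (mem_sdiff.1 hx).1 a hza) rfl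
          (fun x hx => mem_io.1 hx a hza) (mem_sdiff.1 huR).2 hu
        have h8 := ha.2
        simp only [hmR, hmK] at h8 ⊢
        omega
      · rw [if_neg hz]
        by_cases huK : u ∈ K z
        · rw [if_pos huK]
          have := mm_succ (N := N) (io N Q z \ io N P z) (io N (fun s => nb N (P s)) z) W u
          simp only [hmK]
          omega
        · rw [if_neg huK]
          have : u ∉ nb N (io N Q z \ io N P z) \ io N (fun s => nb N (P s)) z := by
            intro h
            rw [mem_sdiff] at h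
            exact huK (mem_sdiff.2 ⟨nb_mono sdiff_subset h.1, h.2⟩)
          have := mm_same (W := W) this
          simp only [hmK]
          omega
    omega
  have main : ∀ W : Finset V, ∑ a, (((R a ∩ W).card : ℤ) - mR a W) ≤
      ∑ z, (((K z ∩ W).card : ℤ) - mK z W) := by
    intro W
    induction W using Finset.induction_on with
    | empty =>
      have e1 : ∀ a, mR a ∅ = 0 := fun a => mm_empty _ _ (hR a)
      have e2 : ∀ z, mK z ∅ = 0 := fun z => mm_empty _ _ (rowHall hR z)
      simp [e1, e2]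
    | insert u W hu ih =>
      have h1 := step u W hu
      have h2 : ∀ A : Finset V, ((A ∩ insert u W).card : ℤ) =
          (A ∩ W).card + if u ∈ A then (1 : ℤ) else 0 := by
        intro A
        by_cases hA : u ∈ A
        · rw [inter_insert_of_mem hA, card_insert_of_notMem (fun h => hu (mem_inter.1 h).2),
            if_pos hA]
          push_cast
          rfl
        · rw [inter_insert_of_notMem hA, if_neg hA, add_zero]
      simp only [h2]
      have e1 : ∑ a, ((((R a ∩ W).card : ℤ) + if u ∈ R a then (1 : ℤ) else 0) -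
          mR a (insert u W)) = ∑ a, (((R a ∩ W).card : ℤ) - mR a W) +
          ∑ a, ((if u ∈ R a then (1 : ℤ) else 0) - (mR a (insert u W) - mR a W)) := by
        rw [← sum_add_distrib]
        exact sum_congr rfl fun a _ => by ring
      have e2 : ∑ z, ((((K z ∩ W).card : ℤ) + if u ∈ K z then (1 : ℤ) else 0) -
          mK z (insert u W)) = ∑ z, (((K z ∩ W).card : ℤ) - mK z W) +
          ∑ z, ((if u ∈ K z then (1 : ℤ) else 0) - (mK z (insert u W) - mK z W)) := by
        rw [← sum_add_distrib]
        exact sum_congr rfl fun z _ => by ring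
      rw [e1, e2]
      exact add_le_add ih h1
  have h := main univ
  simp only [inter_univ, hmR, hmK, mm_univ] at h
  exact h

end Rows

end Abs

end Vale.Agent.P038.H315
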